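import Vale.Agent.P050.MathlibUsed

/-!
Statement-level definitions for the reflection-monotone targets.
-/

namespace Vale.Agent.P050

/-- `t(H,G)` -/
noncomputable def homDensity {V U : Type*} (H : SimpleGraph V) (G : SimpleGraph U) : ℝ :=
  (Nat.card (H →g G) : ℝ) / (Nat.card U : ℝ) ^ Nat.card V

/-- `p(G)` -/
noncomputable def edgeDensity {U : Type*} (G : SimpleGraph U) : ℝ :=
  2 * (Nat.card G.edgeSet : ℝ) / (Nat.card U : ℝ) ^ 2

/-- every finite bipartite graph satisfies the Sidorenko inequality against the target `G` -/
def SidorenkoAgainst {U : Type*} (G : SimpleGraph U) : Prop :=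
  ∀ (V : Type) [Finite V] (H : SimpleGraph V), H.IsBipartite →
    edgeDensity G ^ Nat.card H.edgeSet ≤ homDensity H G

/-- stronger: for finite bipartite graphs `H ≤ H'` on the same vertex set, the additional edges
cost at most a factor `p(G)` each -/
def EdgewiseSidorenkoAgainst {U : Type*} (G : SimpleGraph U) : Prop :=
  ∀ (V : Type) [Finite V] (H H' : SimpleGraph V), H'.IsBipartite → H ≤ H' →
    homDensity H G * edgeDensity G ^ (Nat.card H'.edgeSet - Nat.card H.edgeSet)
      ≤ homDensity H' G

/-- generalised Kneser graph: `k`-subsets of an `n`-set, adjacent when they are distinct and have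
at most `t` common elements; `t = 0` is the Kneser graph -/
def kneserGraph (n k t : ℕ) : SimpleGraph {s : Finset (Fin n) // s.card = k} where
  Adj x y := x ≠ y ∧ (x.1 ∩ y.1).card ≤ t
  symm := ⟨fun x y h => ⟨h.1.symm, by rw [Finset.inter_comm]; exact h.2⟩⟩
  loopless := ⟨fun x h => h.1 rfl⟩

/-- words of length `n` over an alphabet with `q` letters, adjacent when they are distinct and the
set of positions where they differ belongs to `S` -/
def hammingGraph (n q : ℕ) (S : Set (Finset (Fin n))) : SimpleGraph (Fin n → Fin q) where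
  Adj x y := x ≠ y ∧ Finset.univ.filter (fun i => x i ≠ y i) ∈ S
  symm := ⟨fun x y h => ⟨h.1.symm, by simp only [ne_comm]; exact h.2⟩⟩
  loopless := ⟨fun x h => h.1 rfl⟩

/-- distance on the cycle of length `n` -/
def cdist (n i j : ℕ) : ℕ := min (max i j - min i j) (n - (max i j - min i j))

/-- circular graph: points of the cycle of length `n`, adjacent when they are distinct and at
cyclic distance at least `r` (the circular clique `K_{n/r}`; `n = 2 r + 1` is the odd cycle) -/
def circularGraph (n r : ℕ) : SimpleGraph (Fin n) where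
  Adj i j := i ≠ j ∧ r ≤ cdist n i j
  symm := ⟨fun i j h => ⟨h.1.symm, by
    unfold cdist at *; rw [max_comm, min_comm (j : ℕ)]; exact h.2⟩⟩
  loopless := ⟨fun x h => h.1 rfl⟩

/-- one step: `v` is the mirror image of `u` in a reflection having `u` on the side of `x` -/
def Step {X ι : Type*} (s : ι → X → X) (P : ι → Set X) (x u v : X) : Prop :=
  ∃ i, ((x ∈ P i ∧ u ∈ P i) ∨ (s i x ∈ P i ∧ s i u ∈ P i)) ∧ v = s i u

/-- A monotone system of reflections of the graph `G`: involutive automorphisms `s i`, each with
two half-spaces `P i` and `Q i` (the rest is the mirror image of the half-space and fixed points),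
such that adjacency of `x` in `P i` to the mirror image of `y` in `Q i` implies adjacency
to `y`; and each point `z` can be reached from each point `x` by reflecting away from `x`. -/
structure MonotoneReflections {U ι : Type*} (G : SimpleGraph U) (s : ι → U → U)
    (P Q : ι → Set U) : Prop where
  invol : ∀ i x, s i (s i x) = x
  sideP : ∀ i x, x ∈ P i → s i x ∉ P i
  sideQ : ∀ i x, x ∈ Q i → s i x ∉ Q i
  fixP : ∀ i x, x ∉ P i → s i x ∉ P i → s i x = x
  fixQ : ∀ i x, x ∉ Q i → s i x ∉ Q i → s i x = x
  auto : ∀ i x y, G.Adj (s i x) (s i y) ↔ G.Adj x y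
  mono : ∀ i x y, x ∈ P i → y ∈ Q i → G.Adj x (s i y) → G.Adj x y
  reach : ∀ x z, Relation.ReflTransGen (Step s P x) x z

end Vale.Agent.P050
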