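import Mathlib.Algebra.Order.Ring.Star
import Mathlib.Algebra.Order.Star.Real
import Mathlib.Analysis.Complex.ExponentialBounds
import Mathlib.Combinatorics.SimpleGraph.Coloring.Constructions
import Mathlib.Combinatorics.SimpleGraph.Connectivity.Finite
import Mathlib.Combinatorics.SimpleGraph.Girth
import Mathlib.Combinatorics.SimpleGraph.Trails
import Mathlib.MeasureTheory.Integral.Pi
import Mathlib.MeasureTheory.Order.Group.Lattice
import Mathlib.Order.CompletePartialOrder
import Mathlib.Tactic

/-! The part of Mathlib that the development of this folder uses. -/
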